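import Vale.Agent.P072.Main

namespace Vale.Agent.Results.P072.Permanence

open Vale.Agent.P072

/-- The permanence conjecture: weakly reversible mass-action systems are permanent on every
positive stoichiometric class. -/
theorem result : ∀ (d : ℕ) (R : Finset (Cpx d × Cpx d)), WeaklyReversible R →
    ∀ k : Cpx d → Cpx d → ℝ, (∀ r ∈ R, 0 < k r.1 r.2) →
    ∀ c : Fin d → ℝ, (∀ i, 0 < c i) → PermanentOn R k c :=
  fun _ R hwr k hk c hc => permanentOn_of_weaklyReversible R hwr k hk c hc

end Vale.Agent.Results.P072.Permanence
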